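import Vale.Agent.P237.Quant.TailData.N44.tailN44P2Part0
import Vale.Agent.P237.Quant.TailData.N44.tailN44P2Part1
import Vale.Agent.P237.Quant.TailData.N44.tailN44P2Part2
import Vale.Agent.P237.Quant.TailData.N44.tailN44P2Part3

/-!
Tail calibration tailN44P2 in dimension 44. The check. Generated data, checked by the kernel.
-/

set_option maxRecDepth 100000
set_option linter.all false

namespace Vale.Agent.P237.Quant.TailData

open TailCert


/-- The calibration. -/
noncomputable def tailN44P2 : Cfg :=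
  tailN44P2Base.withIvals (List.flatten [tailN44P2L0, tailN44P2L1, tailN44P2L2, tailN44P2L3, tailN44P2L4, tailN44P2L5, tailN44P2L6, tailN44P2L7, tailN44P2L8, tailN44P2L9, tailN44P2L10, tailN44P2L11, tailN44P2L12, tailN44P2L13, tailN44P2L14, tailN44P2L15])

theorem tailN44P2_parts : [tailN44P2L0, tailN44P2L1, tailN44P2L2, tailN44P2L3, tailN44P2L4, tailN44P2L5, tailN44P2L6, tailN44P2L7, tailN44P2L8, tailN44P2L9, tailN44P2L10, tailN44P2L11, tailN44P2L12, tailN44P2L13, tailN44P2L14, tailN44P2L15].Forall fun l => tailN44P2Base.partUsed tailN44P2Used l = true := by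
  simp only [List.forall_cons, List.Forall]
  exact ⟨tailN44P2L0_ok, tailN44P2L1_ok, tailN44P2L2_ok, tailN44P2L3_ok, tailN44P2L4_ok, tailN44P2L5_ok, tailN44P2L6_ok, tailN44P2L7_ok, tailN44P2L8_ok, tailN44P2L9_ok, tailN44P2L10_ok, tailN44P2L11_ok, tailN44P2L12_ok, tailN44P2L13_ok, tailN44P2L14_ok, tailN44P2L15_ok⟩

theorem tailN44P2_check : tailN44P2.check = true :=
  Cfg.check_of_parts (by decide +kernel) tailN44P2_parts

end Vale.Agent.P237.Quant.TailData
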