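import Vale.Agent.P237.Quant.TailData.N44.tailN44P3Part0
import Vale.Agent.P237.Quant.TailData.N44.tailN44P3Part1
import Vale.Agent.P237.Quant.TailData.N44.tailN44P3Part2
import Vale.Agent.P237.Quant.TailData.N44.tailN44P3Part3
import Vale.Agent.P237.Quant.TailData.N44.tailN44P3Part4
import Vale.Agent.P237.Quant.TailData.N44.tailN44P3Part5

/-!
Tail calibration tailN44P3 in dimension 44. The check. Generated data, checked by the kernel.
-/

set_option maxRecDepth 100000
set_option linter.all false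

namespace Vale.Agent.P237.Quant.TailData

open TailCert


/-- The calibration. -/
noncomputable def tailN44P3 : Cfg :=
  tailN44P3Base.withIvals (List.flatten [tailN44P3L0, tailN44P3L1, tailN44P3L2, tailN44P3L3, tailN44P3L4, tailN44P3L5, tailN44P3L6, tailN44P3L7, tailN44P3L8, tailN44P3L9, tailN44P3L10, tailN44P3L11, tailN44P3L12, tailN44P3L13, tailN44P3L14, tailN44P3L15, tailN44P3L16, tailN44P3L17, tailN44P3L18, tailN44P3L19, tailN44P3L20, tailN44P3L21, tailN44P3L22])

theorem tailN44P3_parts : [tailN44P3L0, tailN44P3L1, tailN44P3L2, tailN44P3L3, tailN44P3L4, tailN44P3L5, tailN44P3L6, tailN44P3L7, tailN44P3L8, tailN44P3L9, tailN44P3L10, tailN44P3L11, tailN44P3L12, tailN44P3L13, tailN44P3L14, tailN44P3L15, tailN44P3L16, tailN44P3L17, tailN44P3L18, tailN44P3L19, tailN44P3L20, tailN44P3L21, tailN44P3L22].Forall fun l => tailN44P3Base.partUsed tailN44P3Used l = true := by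
  simp only [List.forall_cons, List.Forall]
  exact ⟨tailN44P3L0_ok, tailN44P3L1_ok, tailN44P3L2_ok, tailN44P3L3_ok, tailN44P3L4_ok, tailN44P3L5_ok, tailN44P3L6_ok, tailN44P3L7_ok, tailN44P3L8_ok, tailN44P3L9_ok, tailN44P3L10_ok, tailN44P3L11_ok, tailN44P3L12_ok, tailN44P3L13_ok, tailN44P3L14_ok, tailN44P3L15_ok, tailN44P3L16_ok, tailN44P3L17_ok, tailN44P3L18_ok, tailN44P3L19_ok, tailN44P3L20_ok, tailN44P3L21_ok, tailN44P3L22_ok⟩

theorem tailN44P3_check : tailN44P3.check = true :=
  Cfg.check_of_parts (by decide +kernel) tailN44P3_parts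

end Vale.Agent.P237.Quant.TailData
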